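/-!
# Plan for S0161 (bounded Hochschild cohomology of a von Neumann algebra vanishes)

Definitions: `Crest.Agent.H1KR.Defs`.  Standing setting for all tasks:
`C : Set (K →L[ℂ] K)`, `hC : ∀ c ∈ C, star c ∈ C`, `S : StarSubalgebra ℂ (K →L[ℂ] K)`,
`hS : ∀ a, a ∈ S ↔ a ∈ C.centralizer`, `P := C.centralizer`.  (For S0161: `C := M.commutant`.)
Tools: H9/KB1-3 (polar', sys_of_graph, exists_max_sys, exists_max_under, comparison, chain, bisect,
commute_of_no_nil, central_of), H9/KD1 (hb_cone), H1VN.VN.proj_comm, H1VN.Tr.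

## KR-A (assembly).  From `Trichotomy C`, `CMean S`,
`∀ z : S, IsCP P z → TypeI P z → ZMean S z`, `∀ z : S, IsCP P z → TypeII P z → ZMean S z` prove S0161.
Work with functions `G : List S → S`.  `Lin G`: linear in each slot (`∀ l₁ l₂, a ↦ G (l₁ ++ a :: l₂)`
linear), `Bim G`: `G (a*b :: l) = a * G (b :: l)`, `G (l ++ [a*b]) = G (l ++ [a]) * b` (on the relevant
length), `Bd G c m`: `‖G l‖ ≤ c * (l.map ‖·‖).prod` for `l.length = m`.
`δ G (a :: b :: l) = G (a*b :: l) - δ (fun t => G (a :: t)) (b :: l)`, `δ G [a] = 0 = δ G []`.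
For a cochain `f` on `Fin n`, `G_f (a₀ :: ofFn a ++ [b]) = a₀ * f a * b`, and
`hochschildDiff f a = δ G_f (1 :: ofFn a ++ [1])` (induction).
* WL: bounded nets in `S` have WOT limits in `S` along ultrafilters (sesquilinear form
  `InnerProductSpace.continuousLinearMapOfBilin`, commutes with `C`), norm bound, uniqueness; pointwise
  WL of functions keeps Lin/Bim/Bd and commutes with `δ` (induction on the list, generalising `G`).
* Contraction: for `ω : List (S × S)` put `Sω G (a :: l) = ∑ G (a*x :: y :: l)`.  If `δ G = 0` then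
  `G (a*(∑ x*y) :: b :: l) = δ (Sω G) (a :: b :: l) + a * (∑ x * G (1 :: y*b :: l) - b * ∑ x * G (1 :: y :: l))`.
  With `ZMean S z` (T := `G (1 :: · :: l)`) the WL of `z * Sω G` solves `δ G' = z G`, `Bd G' c`.
* Chain map and homotopy for any `ω` with `∑ x*y = 1`:
  `Φ G (a :: b :: l) = ∑ Φ (fun t => G (a*x :: t)) (y*b :: l)`, `Φ G [a] = G [a]`,
  `H G (a :: b :: l) = ∑ G (a*x :: y :: b :: l) - ∑ H (fun t => G (a*x :: t)) (y*b :: l)`, `H G [a] = 0`;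
  `H (δ G) + δ (H G) = G - Φ G` for `Lin G` (induction on the list generalising `G`).  Bounds
  `‖ω‖^len`, `len * ‖ω‖^len`.
* TypeP z with `s₁ s₂`: in `S ⊗[ℂ] S` let `A ω = ∑ᵢ sᵢ x ⊗ y sᵢ*`, `B ω = ½ ∑ᵢ x sᵢ* ⊗ sᵢ y`; they commute,
  keep `∑ x y = z`, `sᵢ·ω = (A ω)·sᵢ`, `sᵢ*·(A ω) = ω·sᵢ*` (for `ω = zωz`), `B` and `A∘B` do not increase
  the projective norm (`A B (x ⊗ y) = ¼ ∑_{g} g λ(x) ⊗ λ(y) g*`, `λ a = ∑ sᵢ a sᵢ*`, `g` over the Pauli
  group `z, s₁s₂*+s₂s₁*, s₁s₁*-s₂s₂*, s₁s₂*-s₂s₁*`).  `ω_N = (1/N) ∑_{p<N} A^p B^{N+1} (z ⊗ z) + (1-z) ⊗ (1-z)`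
  has norm ≤ 2, product 1, and `s ω_N - ω_N s → 0` in projective norm for `s = sᵢ, sᵢ*`.  So
  `G' = WL Φ_N G` is a cocycle, `G - G' = δ (WL H_N G)`, and `G'` is modular at every bond
  (`G' (l₁ ++ a*s :: b :: l₂) = G' (l₁ ++ a :: s*b :: l₂)`) for `s` in the monoid generated by `sᵢ, sᵢ*`.
  Then `T x = z * G' (1 :: x :: l ++ [1])` is `CB` with constant `c ∏‖l‖`: `t_j = s₂^j s₁`,
  `x̂ = ∑ t_j x_{ji} t_i*`, `ã = ∑ t_i a t_i*` (`ã t_i = t_i a`), `t_j* G'(1 :: x̂ :: ã.. ++ [1]) t_i = T x_{ji}`.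
  `CMean` with `ω = (z m*, m)` (the bound `‖cav m T a‖ ≤ c ‖a‖` comes from `CB`) solves `δ G'' = z G'`.
* Glue: `𝒵 = {z central projection | ∃ G', Lin, Bim, Bd c_n, δ G' = z G, z G' = G'}` is closed under
  `z + z' - z z'` (norm of an orthogonal central sum is the max) ; ultrafilter limit along the directed set
  `𝒵` gives `δ G' ξ = G ξ` on the closed span `V` of the ranges; `1 - proj V` is a central projection,
  nonzero would give by trichotomy a nonzero `z ∈ 𝒵` under it.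

## KR-B.  `CMean S`, and `IsCP P z → TypeI P z → ZMean S z`.
For `T` cb and a finite family `ζ` let `e(T,ζ) = sup ‖∑ ⟪ζ j, T (x j i) (ξ i)⟫‖` over contractions `x`,
`∑‖ξ‖² ≤ 1`.  With `T^m = cav m T`, `mζ = (m_l ζ_j)`: `e(T^m,ζ) ≤ e(T,mζ)` and, if `m` contains
`α•1` and `α•v` (`v` unitary, `∑ m*m = 1`), Pythagoras:
`e(T,mζ)² ≥ e(T^m,ζ)² + (α²/2) ∑_j ‖star (star v * T v - T 1) ζ_j‖²` (test matrix `[m x | Y]`, `Y` = block
column `2^{-1/2}(1 in slot α•1, -v in slot α•v)`, orthogonal to `m x`; vector `(cos θ ξ, sin θ ξ')`).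
Steps `m^(t) = (α•1, α•v_1..α•v_L, β•c^(t))`, `β² = 1/2`, `ζ^(t) = m^(t) ζ^(t-1)`, `ζ^(0) = η`,
`Ψ_K = T`, `Ψ_{t-1} = Ψ_t^{m^(t)}`; `∑_i e(Ψ_t^i, ζ^(t))²` increases in `t` and is `≤ r c² ‖η‖²`, so some step has a
small increment.  RESET: `c^(t)` is a column (`∑ c*c = 1`) with
`∑‖a η_j‖² ≤ ∑‖a c_l ζ_j‖² + ε‖a‖²` for all `a ∈ S`.  (Tracial `η`: take `c = [1]`, all columns satisfy
`∑ m m* = 1`, `∑‖m‖² ≤ 1`.)  Proof of RESET for `ζ = mη`: Hahn–Banach in the real normed space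
`S →L[ℂ] ℂ` separating `ω_η` from the closure of the convex set `{ω_{cζ} - ω_ρ}` (`ρ` finite families);
the separating functional is `ω ↦ Re ω(h)`, `h ∈ S` (sesquilinear form + commutes with `C`), `h = h* ≥ 0`.
Pointwise: `sup_c ω_{cζ}(h) ≥ ω_η(h)`: `g_λ = (h-λ)₊`, `z_λ` = projection on closure span `S g_λ K`
(central), grid `λ_k = kδ`, `y_k = z_{λ_k} - z_{λ_{k+1}}`, `h y_k ≤ λ_{k+1} y_k`, `ω_η(y_k) = ω_ζ(y_k)`; for
`A = ∑ x* g² x`, `R = (1+A)^{-1/2}`, column `(g x R y_k, R y_k)`, `c* h c ≥ λ_k c* c` on the first part, and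
`inf_A ∑⟪ζ', (1+A)⁻¹ ζ'⟫ = 0` for `ζ' ∈ z_λ K`: `q(A) = ⟪ζ',w_A⟫`, `w_A = (1+A)⁻¹ζ'`, `A ≤ A'` gives
`‖w_A - w_{A'}‖² ≤ q A - q A'`, take `A' = A + t x*g²x`, `t → ∞`, so `‖g x w_A‖ ≤ ‖g x‖ √(q A - inf q)`.
TypeI: `T ↦ z T` is cb with constant `k² ‖T‖` (entries `w_i* T(x) w_j` lie in the commutative `eSe`; for a
matrix `Y` over a commutative C*-algebra `‖Y‖ ≤ sup_χ ‖χ Y‖` via `‖Y‖^{2^{m+1}} = ‖(Y*Y)^{2^m}‖ ≤ s² max entries`
and Gelfand; for a character/bounded functional `φ`, `(φ (x j i))` has norm `≤ ‖φ‖`), the family `(w_i e ξ_r)` is tracial,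
`ω = (z m*, m)`; general `a` from unitaries by `CStarAlgebra.span_unitary` (filter = inf over finite data).

## KR-D.  `Trichotomy C`.
cs(a) = projection on closure span `P a K` (central).  Generic Zorn (via `sys_of_graph`) for tuples `v`
(`v i₀` projection, `(v i)* (v i) = v i₀`) with a strongly closed property `Q`, extension order.
(1) If there is `w : ℕ → P`, `w_k* w_l = δ g`, `g ≠ 0`, `z₀ w_k = w_k`: `s_i = ∑ w_{2k+i} w_k*` (e.g. graph of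
`∑ w_kξ_k ↦ ∑ w_{2k+i}ξ_k` + `sys_of_graph`) gives `q ≠ 0` with `s_i* s_j = δ q`, `q s_i = s_i`.  Maximal such
`(q,s₁,s₂)` under `z₀` (containing a nonzero one); `r = z₀ - q`, `comparison`: `w` from `r` into `q`, `z' = cs(r - w*w)`
kills `q - w w*`, so `w* s_i w z'` lives under `r`, maximality gives `z' q = 0`; `z = z₀ - z'`,
`S_i = z s_i (s₁ + s₂ w)`; finally `p = z - S₁S₁* - S₂S₂*`, `E` = proj on closure span `S₂^k p K`,
`E = p + S₂ E S₂*`, replace `S₂` by `E + S₂ (z - E)`.  TypeP.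
(2) Otherwise (finite): no `s` with `s*s = g`, `ss* < g` (take `w_k = s^k (g - ss*)`), and COVER: for a
projection `0 ≠ g ≤ z₀` there are a central `0 ≠ z ≤ z₀` and `w_1..w_k`, `w_i g = w_i`, `∑ w_i w_i* = z`
(`w_1 = g`, `w_{k+1}` maximal from `g` into `z₀ - ∑_{i ≤ k}`; if `w_k* w_k ≠ g` take `z = cs(g - w_k* w_k)`,
else an infinite family).  Abelian `g ≠ 0` under `z₀`: TypeI.
(3) Else TypeII: `0 ≠ ξ = z₀ξ`, `g₀` = proj on closure `P' ξ` (`aξ = 0 → a g₀ = 0`), `φ = ω_ξ`.  Maximal `v` in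
`g₀Pg₀` with `φ(v*v) ≥ 2 φ(vv*)`; `e₀ = g₀ - v*v`, `f₀ = g₀ - vv* ≠ 0`; `f₀ P e₀ ≠ 0` by finiteness, polar gives
`w ≠ 0`, `w*w = e₁ ≤ e₀`, `ww* ≤ f₀`; so `φ(t*t) ≤ 2 φ(w t t* w*)` for partial isometries `t` in `e₁Pe₁`.  Maximal
projection `p₀ ≤ e₁` with `φ(w p w*) ≥ c φ(p)` (`c > φ(w w*)/φ(e₁)`), `g = e₁ - p₀ ≠ 0`.  Hence
`φ(u* p u) ≤ 2c φ(p)` for projections `p ≤ g`, unitaries `u` commuting with `g`; `bisect` iterated
(`a + r g = (a' + (r/2) g) + r p`) extends it to positive `a`: `‖a u gξ‖² ≤ 2c ‖a gξ‖²` on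
`P_g = (C ∪ {g}).centralizer`.  Fixed point: on `H₁ = closure P_g gξ`, `⟪π(u)ζ, a gξ⟫ = ⟪ζ, u* a u gξ⟫`;
minimise `N ζ = sup_u ‖π(u)ζ‖` (parallelogram: `N((x+y)/2)² + ‖(x-y)/2‖²/(2c) ≤ (N x² + N y²)/2`) over the closed convex
invariant set `{ζ | ∀ u a, ‖a gξ‖² ≤ 2c Re⟪ζ, u* a* a u gξ⟫}`; the minimiser is invariant, so `⟪ζ, · gξ⟫` is
tracial on `P_g`; COVER and `L = (w_i ζ, w_i ξ), (w_i ξ, w_i ζ)` normalised.

## KR-E.  `TrMean` (for all `A` in the universe of `K`) → `IsCP P z → TypeII P z → ZMean S z`.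
`K_z = range z`, `C_z` = compressions of `C`, `A = C_z.centralizer` as a closed star subalgebra,
`κ a` = compression, `ι b = incl ∘ b ∘ proj` (`ι κ a = z a`, `κ ι b = b`).  `Tr A` from `L`.  `Ext A`: for `MU e`
use `C' = C_z ∪ range e`, `exists_max_under` (n = 2, g = 1), the rest `r` is `Small 2`, so has no nilpotent
(polar), so is abelian in `C'.centralizer` (`commute_of_no_nil`), `r e_aa` is abelian in `A`, so `r = 0`;
`X = v₁ + v₁*`, `Z = v₀ - v₁v₁*` (`ι` empty forces `1 = 0`, impossible as `τ 1 = 1`).  `ω = (p • ι u*, ι u)`,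
`φ = κ ∘ T ∘ ι`.  WOT convergence from `τ(y ·)` convergence: along an ultrafilter the bounded errors have a
WOT limit `d = z d` with `vf L (y d) = 0` for all `y`, so `d = 0` by faithfulness.

## KR-C (helper1).  `TrMean A`: time reversal for `W = ∏ t_l r t_l*`, `r` a random monomial unitary.
-/
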